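import Vale.Agent.P235.MathlibUsed

namespace Vale.Agent.P235

open MeasureTheory

/-- Shortest-path distance of `G` for the edge lengths `ℓ`: infimum of the lengths of walks. -/
noncomputable def pathDist {V : Type} (G : SimpleGraph V) (ℓ : Sym2 V → ℝ) (x y : V) : ℝ :=
  ⨅ w : G.Walk x y, (w.edges.map ℓ).sum

/-- `(X, d)` embeds into some `L₁(Ω, μ; ℝ)` with distortion at most `C`. -/
def EmbedsL1 {X : Type} (d : X → X → ℝ) (C : ℝ) : Prop :=
  ∃ (Ω : Type) (_ : MeasurableSpace Ω) (μ : Measure Ω) (f : X → Lp ℝ 1 μ),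
    ∀ x y, d x y ≤ ‖f x - f y‖ ∧ ‖f x - f y‖ ≤ C * d x y

/-- `c₁(G) ≤ C`: for all positive edge lengths the path metric of `G` embeds into `L₁`
with distortion at most `C`. -/
def DistortionLE {V : Type} (G : SimpleGraph V) (C : ℝ) : Prop :=
  ∀ ℓ : Sym2 V → ℝ, (∀ e ∈ G.edgeSet, 0 < ℓ e) → EmbedsL1 (pathDist G ℓ) C

/-- `G` has a path decomposition (bags `B 0, B 1, …, B (n-1)`) of width at most `p`. -/
def PathwidthLE {V : Type} (G : SimpleGraph V) (p : ℕ) : Prop :=
  ∃ (n : ℕ) (B : Fin n → Finset V),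
    (∀ v, ∃ i, v ∈ B i) ∧
    (∀ u v, G.Adj u v → ∃ i, u ∈ B i ∧ v ∈ B i) ∧
    (∀ i j k, i ≤ j → j ≤ k → ∀ v, v ∈ B i → v ∈ B k → v ∈ B j) ∧
    (∀ i, (B i).card ≤ p + 1)

/-- The smallest class of graphs containing all graphs of pathwidth at most `p` and closed under
gluing two graphs along an edge and under deleting edges. -/
inductive EdgeSum (p : ℕ) : ∀ {V : Type}, SimpleGraph V → Prop
  | base {V : Type} {G : SimpleGraph V} : PathwidthLE G p → EdgeSum p G
  | del {V : Type} {G G' : SimpleGraph V} : EdgeSum p G → G' ≤ G → EdgeSum p G'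
  | glue {V : Type} {G : SimpleGraph V} {A B : Set V} {s t : V} :
      G.Adj s t → A ∪ B = Set.univ → A ∩ B = {s, t} →
      (∀ a b, a ∉ B → b ∉ A → ¬ G.Adj a b) →
      EdgeSum p (G.induce A) → EdgeSum p (G.induce B) → EdgeSum p G

end Vale.Agent.P235
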